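import Vale.Agent.P335.Defs
import Mathlib.Probability.HasLawExists
import Mathlib.Probability.UniformOn

/-!
The switch chain as a random process. `HasDegrees`, `Graphical`, `Realization`,
`perfectMatchings`, `switchMove`, `switchChain` are those of `Vale.Agent.P335.Defs`.
-/

namespace Vale.Agent.P335W

open MeasureTheory ProbabilityTheory Vale.Agent.P335

/-- the `4`-element sets of vertices -/
abbrev Four (n : ℕ) : Type := {S : Finset (Fin n) // S.card = 4}

/-- the ordered pairs `(F, F')` of distinct perfect matchings of the complete graph on `S` -/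
abbrev Pair {n : ℕ} (S : Four n) : Type :=
  {p : Finset (Sym2 (Fin n)) × Finset (Sym2 (Fin n)) //
    p.1 ∈ perfectMatchings S.1 ∧ p.2 ∈ perfectMatchings S.1 ∧ p.1 ≠ p.2}

/-- the choices made in one step: a coin, a set `S` and a pair `(F, F')` -/
abbrev Choice (n : ℕ) : Type := Bool × Σ S : Four n, Pair S

variable {n : ℕ} {d : Fin n → ℕ}

/-- one step: stay put if the coin says so, otherwise try the switch `F → F'` -/
noncomputable def step (G : SimpleGraph (Fin n)) (c : Choice n) : SimpleGraph (Fin n) :=
  cond c.1 G (switchMove G c.2.2.1.1 c.2.2.1.2)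

/-- the graph after `t` steps from `G` with the choices `c 0, c 1, …` -/
noncomputable def walk (G : SimpleGraph (Fin n)) (c : ℕ → Choice n) : ℕ → SimpleGraph (Fin n)
  | 0 => G
  | t + 1 => step (walk G c t) (c t)

variable {Ω : Type} [MeasurableSpace Ω]

/-- independent steps; in each the coin is fair, `S` is uniform, and then the pair is uniform -/
structure IsChoices (P : Measure Ω) (c : ℕ → Ω → Choice n) : Prop where
  prob : IsProbabilityMeasure P
  meas : ∀ t x, MeasurableSet {ω | c t ω = x}
  unif : ∀ t x, P.real {ω | c t ω = x} = 1 / 2 * (1 / n.choose 4) * (1 / 6)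
  indep : iIndep (fun t => MeasurableSpace.comap (c t) ⊤) P

/-- the event that the chain started at `G` is at `H` after `t` steps -/
def At {Ω : Type} (c : ℕ → Ω → Choice n) (G : Realization d) (t : ℕ) (H : Realization d) :
    Set Ω :=
  {ω | walk G.1 (fun s => c s ω) t = H.1}

/-- from every start, the law after `t` steps is within total variation `1 / 4` of uniform -/
def Mixed (d : Fin n → ℕ) (P : Measure Ω) (c : ℕ → Ω → Choice n) (t : ℕ) : Prop :=
  ∀ G : Realization d,
    1 / 2 * ∑ᶠ H : Realization d, |P.real (At c G t H) - 1 / Nat.card (Realization d)| ≤ 1 / 4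

end Vale.Agent.P335W
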