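import Vale.Agent.P335W16.Defs
import Vale.Agent.P335.Bdl.B2

namespace Vale.Agent.P335W

open MeasureTheory ProbabilityTheory Vale.Agent.P335

variable {n : ℕ} {d : Fin n → ℕ}

theorem step_deg {G : SimpleGraph (Fin n)} (hG : HasDegrees d G) (c : Choice n) :
    HasDegrees d (step G c) := by
  obtain ⟨b, S, p⟩ := c
  cases b
  · exact switchMove_hasDegrees hG p.2.1 p.2.2.1
  · exact hG

theorem walk_deg {G : SimpleGraph (Fin n)} (hG : HasDegrees d G) (c : ℕ → Choice n) :
    ∀ t, HasDegrees d (walk G c t)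
  | 0 => hG
  | t + 1 => step_deg (walk_deg hG c t) (c t)

theorem sum_pair (S : Four n) (g : Finset (Sym2 (Fin n)) × Finset (Sym2 (Fin n)) → ℝ) :
    ∑ p ∈ (perfectMatchings S.1).offDiag, g p = ∑ p : Pair S, g p.1 :=
  Finset.sum_subtype _ (fun _ => Finset.mem_offDiag) g

theorem sum_four (g : Finset (Fin n) → ℝ) :
    ∑ S ∈ (Finset.univ : Finset (Fin n)).powersetCard 4, g S = ∑ S : Four n, g S.1 :=
  Finset.sum_subtype _ (fun _ => by simp) g

theorem card_pair (S : Four n) : Fintype.card (Pair S) = 6 := by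
  have h := sum_pair S fun _ => 1
  simp only [Finset.sum_const, nsmul_eq_mul, mul_one, PM_offDiag_card S.2, Finset.card_univ] at h
  exact_mod_cast h.symm

theorem card_four : Fintype.card (Four n) = n.choose 4 := by
  rw [Fintype.card_finset_len, Fintype.card_fin]

theorem card_choice : Fintype.card (Choice n) = 2 * (n.choose 4 * 6) := by
  rw [Fintype.card_prod, Fintype.card_bool, Fintype.card_sigma,
    Finset.sum_congr rfl fun S _ => card_pair S, Finset.sum_const, Finset.card_univ, card_four,
    smul_eq_mul]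

open Classical in
theorem one_step (hn : 4 ≤ n) (G H : Realization d) :
    ∑ x : Choice n, (if step G.1 x = H.1 then (1 / 2 * (1 / n.choose 4) * (1 / 6) : ℝ) else 0) =
      switchChain d G H := by
  have h0 : (n.choose 4 : ℝ) ≠ 0 := by exact_mod_cast (Nat.choose_pos hn).ne'
  rw [Fintype.sum_prod_type, Fintype.sum_bool, switchChain, sum_four]
  congr 1
  · have hc : (Fintype.card (Σ S : Four n, Pair S) : ℝ) = n.choose 4 * 6 := by
      rw [Fintype.card_sigma, Finset.sum_congr rfl fun S _ => card_pair S, Finset.sum_const,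
        Finset.card_univ, card_four, smul_eq_mul]
      push_cast
      rfl
    by_cases h : G = H
    · rw [if_pos h, Finset.sum_congr rfl fun y _ =>
        if_pos (show step G.1 (true, y) = H.1 from congrArg Subtype.val h), Finset.sum_const,
        Finset.card_univ, nsmul_eq_mul, hc]
      field_simp
    · rw [if_neg h, Finset.sum_congr rfl fun y _ =>
        if_neg (show ¬ step G.1 (true, y) = H.1 from fun h' => h (Subtype.ext h'))]
      simp
  · rw [Fintype.sum_sigma, Finset.mul_sum]
    refine Finset.sum_congr rfl fun S _ => ?_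
    rw [sum_pair, Finset.mul_sum, Finset.mul_sum]
    refine Finset.sum_congr rfl fun p _ => ?_
    by_cases h : switchMove G.1 p.1.1 p.1.2 = H.1
    · rw [if_pos h, if_pos (show step G.1 (false, ⟨S, p⟩) = H.1 from h)]
      ring
    · rw [if_neg h, if_neg (show ¬ step G.1 (false, ⟨S, p⟩) = H.1 from h)]
      ring

variable {Ω : Type} [mΩ : MeasurableSpace Ω] {P : Measure Ω} {c : ℕ → Ω → Choice n}

omit mΩ in
open Classical in
theorem at_succ (G H : Realization d) (t : ℕ) :
    At c G (t + 1) H = ⋃ y ∈ Finset.univ.filter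
      (fun y : Realization d × Choice n => step y.1.1 y.2 = H.1),
        At c G t y.1 ∩ {ω | c t ω = y.2} := by
  ext ω
  simp only [At, walk, Set.mem_ofPred_eq, Finset.mem_filter, Finset.mem_univ, true_and,
    Set.mem_iUnion, Set.mem_inter_iff, exists_prop]
  constructor
  · exact fun h => ⟨(⟨_, walk_deg G.2 _ t⟩, c t ω), h, rfl, rfl⟩
  · rintro ⟨y, h1, h2, h3⟩
    rw [h2, h3, h1]

omit mΩ in
theorem at_meas (G : Realization d) : ∀ (t : ℕ) (H : Realization d),
    MeasurableSet[⨆ s ∈ Set.Iio t, MeasurableSpace.comap (c s) ⊤] (At c G t H)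
  | 0, H => by
    by_cases h : G.1 = H.1
    · have : At c G 0 H = Set.univ := Set.eq_univ_of_forall fun _ => h
      rw [this]
      exact MeasurableSet.univ
    · have : At c G 0 H = ∅ := Set.eq_empty_of_forall_notMem fun _ h' => h h'
      rw [this]
      exact @MeasurableSet.empty _ (_)
  | t + 1, H => by
    rw [at_succ]
    refine Finset.measurableSet_biUnion _ fun y _ => MeasurableSet.inter ?_ ?_
    · exact (biSup_mono (p := fun s => s ∈ Set.Iio t) fun s hs => Nat.lt_succ_of_lt hs :
        (⨆ s ∈ Set.Iio t, MeasurableSpace.comap (c s) ⊤) ≤ _) _ (at_meas G t y.1)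
    · exact (le_iSup₂ (f := fun s (_ : s ∈ Set.Iio (t + 1)) => MeasurableSpace.comap (c s) ⊤) t
        (Nat.lt_succ_self t)) _ ⟨{y.2}, trivial, rfl⟩

theorem IsChoices.le (h : IsChoices P c) (t : ℕ) : MeasurableSpace.comap (c t) ⊤ ≤ mΩ := by
  rintro _ ⟨s, -, rfl⟩
  have : c t ⁻¹' s = ⋃ x ∈ s, {ω | c t ω = x} := by
    ext ω
    simp
  rw [this]
  exact MeasurableSet.biUnion (Set.to_countable s) fun x _ => h.meas t x

theorem IsChoices.measAt (h : IsChoices P c) (G : Realization d) (t : ℕ) (H : Realization d) :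
    MeasurableSet (At c G t H) :=
  (iSup₂_le fun s _ => h.le s :
    (⨆ s ∈ Set.Iio t, MeasurableSpace.comap (c s) ⊤) ≤ mΩ) _ (at_meas G t H)

theorem IsChoices.inter (h : IsChoices P c) (G : Realization d) (t : ℕ) (H : Realization d)
    (x : Choice n) : P.real (At c G t H ∩ {ω | c t ω = x}) =
      P.real (At c G t H) * (1 / 2 * (1 / n.choose 4) * (1 / 6)) := by
  have h1 := indep_iSup_of_disjoint h.le h.indep (S := Set.Iio t) (T := {t}) (by simp)
  have h2 := (Indep_iff _ _ _).1 h1 (At c G t H) {ω | c t ω = x} (at_meas G t H)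
    ((le_iSup₂ (f := fun s (_ : s ∈ ({t} : Set ℕ)) => MeasurableSpace.comap (c s) ⊤) t rfl) _
      ⟨{x}, trivial, rfl⟩)
  rw [← h.unif t x, Measure.real, h2, ENNReal.toReal_mul]
  rfl

open Classical in
theorem IsChoices.law (hn : 4 ≤ n) (h : IsChoices P c) (G : Realization d) :
    ∀ (t : ℕ) (H : Realization d), P.real (At c G t H) = (switchChain d ^ t) G H
  | 0, H => by
    have := h.prob
    rw [pow_zero, Matrix.one_apply]
    split_ifs with h0
    · have : At c G 0 H = Set.univ := Set.eq_univ_of_forall fun _ => congrArg Subtype.val h0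
      rw [this, probReal_univ]
    · have : At c G 0 H = ∅ := Set.eq_empty_of_forall_notMem fun _ h' => h0 (Subtype.ext h')
      rw [this, measureReal_empty]
  | t + 1, H => by
    have := h.prob
    rw [at_succ, measureReal_biUnion_finset ?_ fun y _ => (h.measAt G t y.1).inter (h.meas t y.2)]
    · rw [Finset.sum_congr rfl fun y _ => h.inter G t y.1 y.2, Finset.sum_filter,
        Fintype.sum_prod_type, pow_succ, Matrix.mul_apply]
      refine Finset.sum_congr rfl fun K _ => ?_
      rw [← one_step hn K H, Finset.mul_sum, ← IsChoices.law hn h G t K]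
      refine Finset.sum_congr rfl fun x _ => ?_
      dsimp only
      split_ifs <;> simp
    · intro y _ z _ hyz
      refine Set.disjoint_left.2 fun ω h1 h2 => hyz (Prod.ext (Subtype.ext ?_) ?_)
      · exact (Eq.symm h1.1).trans h2.1
      · exact (Eq.symm h1.2).trans h2.2

theorem IsChoices.mixed (hn : 4 ≤ n) (h : IsChoices P c) (t : ℕ) :
    Mixed d P c t ↔ MixedBy d t := by
  classical
  unfold Mixed MixedBy
  refine forall_congr' fun G => ?_
  rw [finsum_eq_sum_of_fintype, Nat.card_eq_fintype_card]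
  simp only [h.law hn G t]

theorem exists_choices (hn : 4 ≤ n) : ∃ (Ω : Type) (_ : MeasurableSpace Ω) (P : Measure Ω)
    (c : ℕ → Ω → Choice n), IsChoices P c := by
  have hpos : 0 < n.choose 4 := Nat.choose_pos hn
  have : Nonempty (Choice n) := Fintype.card_pos_iff.1 (by rw [card_choice]; positivity)
  let _ : MeasurableSpace (Choice n) := ⊤
  obtain ⟨Ω, mΩ, P, X, hX, hl, hi, hP⟩ := exists_iid ℕ (uniformOn (Set.univ : Set (Choice n)))
  refine ⟨Ω, mΩ, P, X, hP, fun t x => hX t (t := {x}) trivial, fun t x => ?_, hi.iIndep⟩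
  have h1 : P {ω | X t ω = x} = uniformOn Set.univ {x} := by
    rw [← (hl t).map_eq, Measure.map_apply (hX t) trivial]
    rfl
  rw [Measure.real, h1, uniformOn_univ, card_choice]
  simp
  ring

theorem main (n : ℕ) (hn : 4 ≤ n) (d : Fin n → ℕ) (hd : Graphical d) (Ω : Type)
    [MeasurableSpace Ω] (P : Measure Ω) (c : ℕ → Ω → Choice n) (h : IsChoices P c) :
    ∃ t : ℕ, IsLeast {s | Mixed d P c s} t ∧ t ≤ n ^ 6 := by
  obtain ⟨h1, h2, -⟩ := final_of_half (fun _ _ d _ => poincare_half d) n hn d hd
  refine ⟨tmix d, ?_, h2⟩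
  simpa only [h.mixed hn] using h1

end Vale.Agent.P335W
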